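import Vale.Agent.P181.PL1.Strip
import Vale.Agent.P181.PL.Defs

set_option autoImplicit false

/-!
# P181, PL, P1: the literal of `PL.Defs`
-/

namespace Vale.Agent.P181.PL1

open Vale.Agent.P181.T4 (ex ex_of_lt)

/-- **(P1)** -/
theorem pieS : PL.PieS := by
  intro m x mu nu k hx hk h1 h2 hs
  refine stripS m x mu nu k hk hx h1 (fun i j hij => ?_) hs
  have h3 := h2 i
  rw [hij, ex_of_lt nu j.2] at h3
  exact h3

end Vale.Agent.P181.PL1
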