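import Vale.Agent.P181.Z.H503.Pieri
import Vale.Agent.P181.SZR5b.Mark

set_option autoImplicit false

/-!
# P181, PL, P1: the operators of Pieri on the matrix polynomials
-/

open MvPolynomial

namespace Vale.Agent.P181.PL1

open Vale.Agent.P181.T4 (rowOp rowW weight_rowW rowOp_apply mem_HW_iff_isWeightedHomogeneous)
open Vale.Agent.P181.SZR5b (dl dl_apply dl_X_self dl_X_ne rc rowOp_rename colW weight_colW)
open Vale.Agent.P181.Z.H503P

section euler

variable {ι : Type}

lemma coeff_X_mul_pderiv (p : ι) (f : MvPolynomial ι ℂ) (v : ι →₀ ℕ) :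
    coeff v (X p * pderiv p f) = (v p : ℂ) * coeff v f := by
  classical
  induction f using MvPolynomial.induction_on' with
  | monomial u a =>
    rw [pderiv_monomial, coeff_monomial]
    by_cases hu : u p = 0
    · rw [hu, Nat.cast_zero, mul_zero, monomial_zero, mul_zero, coeff_zero]
      by_cases h : u = v
      · rw [← h, hu, Nat.cast_zero, zero_mul]
      · rw [if_neg h, mul_zero]
    · rw [X, monomial_mul, one_mul]
      have h1 : Finsupp.single p 1 + (u - Finsupp.single p 1) = u := by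
        apply add_tsub_cancel_of_le
        rw [Finsupp.single_le_iff]
        omega
      rw [h1, coeff_monomial]
      by_cases h : u = v
      · rw [if_pos h, if_pos h, h]
        ring
      · rw [if_neg h, if_neg h, mul_zero]
  | add p q hp hq => rw [map_add, mul_add, coeff_add, hp, hq, coeff_add, mul_add]

/-- The Euler derivation of a set of variables. -/
noncomputable def eu (S : Finset ι) : Derivation ℂ (MvPolynomial ι ℂ) (MvPolynomial ι ℂ) :=
  ∑ p ∈ S, (X p : MvPolynomial ι ℂ) • pderiv p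

lemma eu_apply (S : Finset ι) (f : MvPolynomial ι ℂ) :
    eu S f = ∑ p ∈ S, X p * pderiv p f := by
  classical
  rw [eu]
  induction S using Finset.induction_on with
  | empty => rfl
  | insert a S ha ih =>
    rw [Finset.sum_insert ha, Finset.sum_insert ha, Derivation.add_apply, ih]
    rfl

lemma coeff_eu (S : Finset ι) (f : MvPolynomial ι ℂ) (v : ι →₀ ℕ) :
    coeff v (eu S f) = ((∑ p ∈ S, v p : ℕ) : ℂ) * coeff v f := by
  rw [eu_apply, coeff_sum, Nat.cast_sum, Finset.sum_mul]
  exact Finset.sum_congr rfl (fun p _ => coeff_X_mul_pderiv p f v)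

lemma eu_eigen (S : Finset ι) (f : MvPolynomial ι ℂ) (c : ℕ) :
    eu S f = (c : ℂ) • f ↔ ∀ v, coeff v f ≠ 0 → ∑ p ∈ S, v p = c := by
  constructor
  · intro h v hv
    have h1 := congrArg (coeff v) h
    rw [coeff_eu, coeff_smul, smul_eq_mul] at h1
    exact_mod_cast mul_right_cancel₀ hv h1
  · intro h
    ext v
    rw [coeff_eu, coeff_smul, smul_eq_mul]
    by_cases hv : coeff v f = 0
    · rw [hv, mul_zero, mul_zero]
    · rw [h v hv]

end euler

variable {m : ℕ} {τ : Type} [Fintype τ]

lemma dl_X [DecidableEq τ] (s i k : Fin m) (j : τ) :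
    dl s i (X (k, j) : MvPolynomial (Fin m × τ) ℂ) = if k = i then X (s, j) else 0 := by
  by_cases h : k = i
  · subst h
    rw [if_pos rfl, dl_X_self]
  · rw [if_neg h, dl_X_ne _ _ _ h]

/-- The row operators satisfy the relations of `gl`. -/
lemma dl_comm (a b c d : Fin m) (f : MvPolynomial (Fin m × τ) ℂ) :
    dl a b (dl c d f) = dl c d (dl a b f) + (if b = c then dl a d f else 0) -
      (if d = a then dl c b f else 0) := by
  classical
  have h : ⁅(dl a b : Derivation ℂ (MvPolynomial (Fin m × τ) ℂ) (MvPolynomial (Fin m × τ) ℂ)),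
      (dl c d : Derivation ℂ (MvPolynomial (Fin m × τ) ℂ) (MvPolynomial (Fin m × τ) ℂ))⁆ =
      (if b = c then dl a d else 0) - (if d = a then dl c b else 0) := by
    apply MvPolynomial.derivation_ext
    rintro ⟨k, j⟩
    rw [Derivation.commutator_apply, Derivation.sub_apply, dl_X, dl_X]
    have e1 : dl a b (if k = d then (X (c, j) : MvPolynomial (Fin m × τ) ℂ) else 0) =
        if k = d ∧ c = b then X (a, j) else 0 := by
      by_cases h1 : k = d
      · rw [if_pos h1, dl_X]
        by_cases h2 : c = b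
        · rw [if_pos h2, if_pos ⟨h1, h2⟩]
        · rw [if_neg h2, if_neg (fun h => h2 h.2)]
      · rw [if_neg h1, map_zero, if_neg (fun h => h1 h.1)]
    have e2 : dl c d (if k = b then (X (a, j) : MvPolynomial (Fin m × τ) ℂ) else 0) =
        if k = b ∧ a = d then X (c, j) else 0 := by
      by_cases h1 : k = b
      · rw [if_pos h1, dl_X]
        by_cases h2 : a = d
        · rw [if_pos h2, if_pos ⟨h1, h2⟩]
        · rw [if_neg h2, if_neg (fun h => h2 h.2)]
      · rw [if_neg h1, map_zero, if_neg (fun h => h1 h.1)]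
    have e3 : (if b = c then dl a d else 0 : Derivation ℂ (MvPolynomial (Fin m × τ) ℂ)
        (MvPolynomial (Fin m × τ) ℂ)) (X (k, j)) =
        if k = d ∧ c = b then X (a, j) else 0 := by
      by_cases h1 : b = c
      · rw [if_pos h1, dl_X]
        by_cases h2 : k = d
        · rw [if_pos h2, if_pos ⟨h2, h1.symm⟩]
        · rw [if_neg h2, if_neg (fun h => h2 h.1)]
      · rw [if_neg h1, if_neg (fun h => h1 h.2.symm)]
        rfl
    have e4 : (if d = a then dl c b else 0 : Derivation ℂ (MvPolynomial (Fin m × τ) ℂ)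
        (MvPolynomial (Fin m × τ) ℂ)) (X (k, j)) =
        if k = b ∧ a = d then X (c, j) else 0 := by
      by_cases h1 : d = a
      · rw [if_pos h1, dl_X]
        by_cases h2 : k = b
        · rw [if_pos h2, if_pos ⟨h2, h1.symm⟩]
        · rw [if_neg h2, if_neg (fun h => h2 h.1)]
      · rw [if_neg h1, if_neg (fun h => h1 h.2.symm)]
        rfl
    rw [e1, e2, e3, e4]
  have h1 := congrArg (fun D : Derivation ℂ (MvPolynomial (Fin m × τ) ℂ)
    (MvPolynomial (Fin m × τ) ℂ) => D f) h
  simp only [Derivation.commutator_apply, Derivation.sub_apply] at h1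
  have e5 : (if b = c then dl a d else 0 : Derivation ℂ (MvPolynomial (Fin m × τ) ℂ)
      (MvPolynomial (Fin m × τ) ℂ)) f = if b = c then dl a d f else 0 := by
    split_ifs
    · rfl
    · rfl
  have e6 : (if d = a then dl c b else 0 : Derivation ℂ (MvPolynomial (Fin m × τ) ℂ)
      (MvPolynomial (Fin m × τ) ℂ)) f = if d = a then dl c b f else 0 := by
    split_ifs
    · rfl
    · rfl
  rw [e5, e6] at h1
  linear_combination h1

/-- The operators with natural numbers as indices. -/
noncomputable def DN (m : ℕ) (τ : Type) [Fintype τ] (a b : ℕ) :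
    MvPolynomial (Fin m × τ) ℂ →ₗ[ℂ] MvPolynomial (Fin m × τ) ℂ :=
  if h : a < m ∧ b < m then rowOp ⟨a, h.1⟩ ⟨b, h.2⟩ else 0

lemma DN_of {a b : ℕ} (ha : a < m) (hb : b < m) (f : MvPolynomial (Fin m × τ) ℂ) :
    DN m τ a b f = dl ⟨a, ha⟩ ⟨b, hb⟩ f := by
  rw [DN, dif_pos ⟨ha, hb⟩, dl_apply]

lemma DN_not {a b : ℕ} (h : ¬ (a < m ∧ b < m)) (f : MvPolynomial (Fin m × τ) ℂ) :
    DN m τ a b f = 0 := by
  rw [DN, dif_neg h, LinearMap.zero_apply]

lemma DN_leib (a b : ℕ) (x y : MvPolynomial (Fin m × τ) ℂ) :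
    DN m τ a b (x * y) = DN m τ a b x * y + x * DN m τ a b y := by
  by_cases h : a < m ∧ b < m
  · rw [DN_of h.1 h.2, DN_of h.1 h.2, DN_of h.1 h.2, Derivation.leibniz, smul_eq_mul, smul_eq_mul]
    ring
  · rw [DN_not h, DN_not h, DN_not h, zero_mul, mul_zero, add_zero]

lemma DN_rel : GlRel m (DN m τ) := by
  intro a b c d ha hb hc hd x
  rw [DN_of ha hb, DN_of hc hd, DN_of hc hd, DN_of ha hb, dl_comm]
  congr 1
  · congr 1
    by_cases h : b = c
    · rw [if_pos h, if_pos (Fin.ext h), DN_of ha hd]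
    · rw [if_neg h, if_neg (fun hh => h (congrArg Fin.val hh))]
  · by_cases h : d = a
    · rw [if_pos h, if_pos (Fin.ext h), DN_of hc hb]
    · rw [if_neg h, if_neg (fun hh => h (congrArg Fin.val hh))]

/-- Row Euler operator. -/
lemma dl_self (i : Fin m) (f : MvPolynomial (Fin m × τ) ℂ) :
    dl i i f = eu (Finset.univ.map ⟨fun j : τ => (i, j), fun _ _ h => (Prod.ext_iff.1 h).2⟩) f := by
  rw [dl_apply, rowOp_apply, eu_apply, Finset.sum_map]
  rfl

lemma row_eigen (i : Fin m) (c : ℕ) (f : MvPolynomial (Fin m × τ) ℂ) :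
    dl i i f = (c : ℂ) • f ↔ ∀ v, coeff v f ≠ 0 → ∑ j, v (i, j) = c := by
  rw [dl_self, eu_eigen]
  refine forall_congr' fun v => forall_congr' fun _ => ?_
  rw [Finset.sum_map]
  rfl

/-- Column Euler operator. -/
noncomputable def ce (m : ℕ) {τ : Type} [Fintype τ] (j : τ) :
    Derivation ℂ (MvPolynomial (Fin m × τ) ℂ) (MvPolynomial (Fin m × τ) ℂ) :=
  eu (Finset.univ.map ⟨fun i : Fin m => (i, j), fun _ _ h => (Prod.ext_iff.1 h).1⟩)

lemma col_eigen (j : τ) (c : ℕ) (f : MvPolynomial (Fin m × τ) ℂ) :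
    ce m j f = (c : ℂ) • f ↔ ∀ v, coeff v f ≠ 0 → ∑ i, v (i, j) = c := by
  rw [ce, eu_eigen]
  refine forall_congr' fun v => forall_congr' fun _ => ?_
  rw [Finset.sum_map]
  rfl

lemma ce_apply (j : τ) (f : MvPolynomial (Fin m × τ) ℂ) :
    ce m j f = ∑ i, X (i, j) * pderiv (i, j) f := by
  rw [ce, eu_apply, Finset.sum_map]
  rfl

lemma ce_X [DecidableEq τ] (j : τ) (k : Fin m) (l : τ) :
    ce m j (X (k, l) : MvPolynomial (Fin m × τ) ℂ) = if l = j then X (k, l) else 0 := by
  classical
  rw [ce_apply]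
  by_cases h : l = j
  · subst h
    rw [if_pos rfl, Finset.sum_eq_single k]
    · rw [pderiv_X_self, mul_one]
    · intro i _ hi
      rw [pderiv_X_of_ne (by intro hh; exact hi (Prod.ext_iff.1 hh).1.symm), mul_zero]
    · intro h
      exact absurd (Finset.mem_univ _) h
  · rw [if_neg h]
    apply Finset.sum_eq_zero
    intro i _
    rw [pderiv_X_of_ne (by intro hh; exact h (Prod.ext_iff.1 hh).2), mul_zero]

lemma ce_dl (j : τ) (a b : Fin m) (f : MvPolynomial (Fin m × τ) ℂ) :
    ce m j (dl a b f) = dl a b (ce m j f) := by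
  classical
  have h : ⁅(ce m j : Derivation ℂ (MvPolynomial (Fin m × τ) ℂ) (MvPolynomial (Fin m × τ) ℂ)),
      (dl a b : Derivation ℂ (MvPolynomial (Fin m × τ) ℂ) (MvPolynomial (Fin m × τ) ℂ))⁆ =
      0 := by
    apply MvPolynomial.derivation_ext
    rintro ⟨k, l⟩
    rw [Derivation.commutator_apply, Derivation.zero_apply, dl_X, ce_X]
    by_cases h1 : k = b
    · by_cases h2 : l = j
      · rw [if_pos h1, if_pos h2, ce_X, if_pos h2, dl_X, if_pos h1, sub_self]
      · rw [if_pos h1, if_neg h2, ce_X, if_neg h2, map_zero, sub_self]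
    · by_cases h2 : l = j
      · rw [if_neg h1, if_pos h2, map_zero, dl_X, if_neg h1, sub_self]
      · rw [if_neg h1, if_neg h2, map_zero, map_zero, sub_self]
  have h1 := congrArg (fun D : Derivation ℂ (MvPolynomial (Fin m × τ) ℂ)
    (MvPolynomial (Fin m × τ) ℂ) => D f) h
  simp only [Derivation.commutator_apply, Derivation.zero_apply] at h1
  exact sub_eq_zero.1 h1

lemma ce_DN (j : τ) (a b : ℕ) (f : MvPolynomial (Fin m × τ) ℂ) :
    ce m j (DN m τ a b f) = DN m τ a b (ce m j f) := by
  by_cases h : a < m ∧ b < m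
  · rw [DN_of h.1 h.2, DN_of h.1 h.2, ce_dl]
  · rw [DN_not h, DN_not h, map_zero]

end Vale.Agent.P181.PL1
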