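import Vale.Agent.P181.PL1.Euler
import Vale.Agent.P181.SZT0.Tr

set_option autoImplicit false

/-!
# P181, PL, P1: a horizontal strip in one new column (Pieri)
-/

open MvPolynomial

namespace Vale.Agent.P181.PL1

open Vale.Agent.P181.T4 (rowOp rowW weight_rowW rowOp_apply mem_HW_iff_isWeightedHomogeneous)
open Vale.Agent.P181.SZ (PK nn TransS)
open Vale.Agent.P181.SZR5b (dl dl_apply dl_X_self dl_X_ne rc rc_inj rowOp_rename colW weight_colW
  HW_rename col_rename map_get map_univ_val)
open Vale.Agent.P181.Z.H503P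

/-- **(P1)** a horizontal strip of a new size. -/
def StripS : Prop := ∀ (m x : ℕ) (mu nu : Fin m → ℕ) (k : Multiset ℕ), x ∉ k → 0 < x →
  (∀ i, mu i ≤ nu i) → (∀ i j : Fin m, (i : ℕ) + 1 = j → nu j ≤ mu i) →
  ∑ i, nu i = ∑ i, mu i + x → nn m mu k ≤ nn m nu (x ::ₘ k)

section gen

variable {A : Type} [CommRing A] [Algebra ℂ A]
variable {E : ℕ → ℕ → A →ₗ[ℂ] A} {c θ d : ℕ → ℂ} {i : ℕ}

lemma phi_T1' (φ : A →ₐ[ℂ] ℂ) {y : ℕ → A} (h0 : ∀ l, l < i → φ (y l) = 0) (c : ℕ → ℂ) (x : A) :
    φ (T1 E c i y x) = φ x * φ (y i) := by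
  rw [T1_apply, map_sum, Finset.sum_range_succ, Finset.sum_eq_zero, zero_add, map_mul,
    GG_self, LinearMap.id_apply]
  intro l hl
  rw [map_mul, h0 l (Finset.mem_range.1 hl), mul_zero]

lemma phi_TT' (φ : A →ₐ[ℂ] ℂ) {y : ℕ → A} (h0 : ∀ l, l < i → φ (y l) = 0) (x : A) :
    ∀ k, φ (TT E θ d i y k x) = φ x * φ (y i) ^ k := by
  intro k
  induction k with
  | zero => rw [TT, LinearMap.id_apply, pow_zero, mul_one]
  | succ k ih => rw [TT, LinearMap.comp_apply, phi_T1' φ h0, ih, pow_succ, mul_assoc]

/-- A ring map which commutes with the operators and fixes the vectors. -/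
lemma map_TT {B : Type} [CommRing B] [Algebra ℂ B] {F : ℕ → ℕ → B →ₗ[ℂ] B} (ρ : A →ₐ[ℂ] B)
    (hρ : ∀ a b x, ρ (E a b x) = F a b (ρ x)) {y : ℕ → A} {z : ℕ → B}
    (hy : ∀ l, ρ (y l) = z l) (x : A) :
    ∀ k, ρ (TT E θ d i y k x) = TT F θ d i z k (ρ x) := by
  have hG : ∀ (c : ℕ → ℂ) (x : A) (e l : ℕ), l + e = i → ρ (GG E c i l x) = GG F c i l (ρ x) := by
    intro c x e
    induction e using Nat.strong_induction_on with
    | _ e ih =>
      intro l hl
      by_cases hli : l < i
      · rw [GG_lt hli, GG_lt hli, map_neg, map_smul, map_sum]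
        congr 2
        refine Finset.sum_congr rfl (fun m hm => ?_)
        obtain ⟨h1, h2⟩ := Finset.mem_Ioc.1 hm
        rw [hρ, ih (i - m) (by omega) m (by omega)]
      · have : l = i := by omega
        rw [this, GG_self, GG_self]
        rfl
  intro k
  induction k with
  | zero => rfl
  | succ k ih =>
    rw [TT, TT, LinearMap.comp_apply, LinearMap.comp_apply, T1_apply, T1_apply, map_sum]
    refine Finset.sum_congr rfl (fun l hl => ?_)
    have := Finset.mem_range.1 hl
    rw [map_mul, hG _ _ (i - l) l (by omega), ih, hy]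

/-- An operator which commutes with the operators acts on `TT` by its values. -/
lemma op_TT {y : ℕ → A} (D : A →ₗ[ℂ] A) (hD : ∀ x y, D (x * y) = D x * y + x * D y)
    (hcomm : ∀ m l x, D (E m l x) = E m l (D x))
    {δ τ : ℂ} (hy : ∀ l, l ≤ i → D (y l) = δ • y l) {x : A} (hx : D x = τ • x) (k : ℕ) :
    D (TT E θ d i y k x) = (τ + k * δ) • TT E θ d i y k x := by
  have hG : ∀ (c : ℕ → ℂ) (x : A) (e l : ℕ), l + e = i → D (GG E c i l x) = GG E c i l (D x) := by
    intro c x e
    induction e using Nat.strong_induction_on with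
    | _ e ih =>
      intro l hl
      by_cases hli : l < i
      · rw [GG_lt hli, GG_lt hli, map_neg, map_smul, map_sum]
        congr 2
        refine Finset.sum_congr rfl (fun m hm => ?_)
        obtain ⟨h1, h2⟩ := Finset.mem_Ioc.1 hm
        rw [hcomm, ih (i - m) (by omega) m (by omega)]
      · have : l = i := by omega
        rw [this, GG_self]
        rfl
  induction k with
  | zero =>
    rw [TT, LinearMap.id_apply, hx]
    congr 1
    push_cast
    ring
  | succ k ih =>
    rw [TT, LinearMap.comp_apply, T1_apply, map_sum, Finset.smul_sum]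
    refine Finset.sum_congr rfl (fun l hl => ?_)
    have := Finset.mem_range.1 hl
    rw [hD, hG _ _ (i - l) l (by omega), ih, map_smul, hy l (by omega), smul_mul_assoc,
      mul_smul_comm, ← add_smul]
    congr 1
    push_cast
    ring

end gen

section strip

variable {m : ℕ} {σ : Type} [Fintype σ]

/-- The new column. -/
noncomputable def yv (m : ℕ) (σ : Type) (l : ℕ) : MvPolynomial (Fin m × Option σ) ℂ :=
  if h : l < m then X (⟨l, h⟩, none) else 0

omit [Fintype σ] in
lemma yv_of {l : ℕ} (h : l < m) : yv m σ l = X (⟨l, h⟩, none) := by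
  rw [yv, dif_pos h]

/-- The weights after the rows `m - 1, …, m - t`. -/
noncomputable def th (mu nu : Fin m → ℕ) (t l : ℕ) : ℂ :=
  if h : l < m then (if l + t < m then (mu ⟨l, h⟩ : ℂ) else (nu ⟨l, h⟩ : ℂ)) else 0

/-- The number of boxes in row `l`. -/
def kb (mu nu : Fin m → ℕ) (l : ℕ) : ℕ := if h : l < m then nu ⟨l, h⟩ - mu ⟨l, h⟩ else 0

/-- The rows `m - 1, …, m - t`. -/
noncomputable def Op (σ : Type) [Fintype σ] (mu nu : Fin m → ℕ) :
    ℕ → MvPolynomial (Fin m × Option σ) ℂ →ₗ[ℂ] MvPolynomial (Fin m × Option σ) ℂ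
  | 0 => LinearMap.id
  | t + 1 => TT (DN m (Option σ)) (th mu nu t) (fun _ => 0) (m - 1 - t) (yv m σ)
      (kb mu nu (m - 1 - t)) ∘ₗ Op σ mu nu t

lemma Op_succ (mu nu : Fin m → ℕ) (t : ℕ) (x : MvPolynomial (Fin m × Option σ) ℂ) :
    Op σ mu nu (t + 1) x = TT (DN m (Option σ)) (th mu nu t) (fun _ => 0) (m - 1 - t) (yv m σ)
      (kb mu nu (m - 1 - t)) (Op σ mu nu t x) := rfl

lemma yv_YVec {i : ℕ} (hi : i < m) :
    YVec m i (DN m (Option σ)) (fun _ => 0) (yv m σ) := by
  classical
  refine ⟨fun r hr j hj => ?_, fun a ha j hj => ?_⟩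
  · rw [DN_of (by omega) hr, yv_of (by omega : j < m), dl_X]
    by_cases h : r + 1 = j
    · rw [if_pos (Fin.ext h.symm), if_pos h, yv_of (by omega : r < m)]
    · rw [if_neg (fun hh => h (congrArg Fin.val hh).symm), if_neg h]
  · rw [DN_of ha ha, yv_of (by omega : j < m), dl_X]
    by_cases h : a = j
    · subst h
      rw [if_pos rfl, if_pos rfl, add_zero, one_smul]
    · rw [if_neg (fun hh => h (congrArg Fin.val hh).symm), if_neg h, add_zero, zero_smul]

/-- The result is a highest weight vector. -/
lemma Op_HW {mu nu : Fin m → ℕ} (h1 : ∀ i, mu i ≤ nu i)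
    (h2 : ∀ i j : Fin m, (i : ℕ) + 1 = j → nu j ≤ mu i) (hmu : Antitone mu)
    {x : MvPolynomial (Fin m × Option σ) ℂ} (hx : x ∈ HW m (DN m (Option σ)) (th mu nu 0)) :
    ∀ t, t ≤ m → Op σ mu nu t x ∈ HW m (DN m (Option σ)) (th mu nu t) := by
  intro t
  induction t with
  | zero => intro _; exact hx
  | succ t ih =>
    intro ht
    have hi : m - 1 - t < m := by omega
    have h3 := TT_HW (DN_rel (m := m) (τ := Option σ)) DN_leib hi (ih (by omega))
      (yv_YVec (σ := σ) hi) (kb mu nu (m - 1 - t)) (fun s hs l hl => ?_)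
    · rw [Op_succ]
      have e : (fun a => th mu nu t a + (kb mu nu (m - 1 - t) : ℂ) *
          ((if a = m - 1 - t then 1 else 0) + 0)) = th mu nu (t + 1) := by
        funext a
        unfold th
        by_cases ha : a < m
        · rw [dif_pos ha, dif_pos ha]
          by_cases h4 : a = m - 1 - t
          · have h5 : nu ⟨a, ha⟩ = mu ⟨a, ha⟩ + kb mu nu (m - 1 - t) := by
              rw [← h4, kb, dif_pos ha]
              have := h1 ⟨a, ha⟩
              omega
            rw [if_pos (show a + t < m by omega), if_pos h4,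
              if_neg (show ¬ (a + (t + 1) < m) by omega), h5]
            push_cast
            ring
          · rw [if_neg h4]
            by_cases h5 : a + t < m
            · rw [if_pos h5, if_pos (by omega)]
              ring
            · rw [if_neg h5, if_neg (by omega)]
              ring
        · rw [dif_neg ha, dif_neg ha, if_neg (by omega)]
          ring
      rw [e] at h3
      exact h3
    · have hl' : l < m := by omega
      have h4 : mu ⟨m - 1 - t, hi⟩ + kb mu nu (m - 1 - t) ≤ mu ⟨l, hl'⟩ := by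
        have h5 : mu ⟨m - 1 - t, hi⟩ + kb mu nu (m - 1 - t) = nu ⟨m - 1 - t, hi⟩ := by
          rw [kb, dif_pos hi]
          have := h1 ⟨m - 1 - t, hi⟩
          omega
        rw [h5]
        have h6 : m - 1 - t - 1 < m := by omega
        refine (h2 ⟨m - 1 - t - 1, h6⟩ ⟨m - 1 - t, hi⟩ ?_).trans (hmu ?_)
        · simp only []
          omega
        · rw [Fin.le_def]
          simp only []
          omega
      rw [cc, th, dif_pos hl', if_pos (by omega), th, dif_pos hi, if_pos (by omega)]
      obtain ⟨u, hu⟩ : ∃ u, mu ⟨l, hl'⟩ = mu ⟨m - 1 - t, hi⟩ + s + u + 1 :=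
        ⟨mu ⟨l, hl'⟩ - (mu ⟨m - 1 - t, hi⟩ + s + 1), by omega⟩
      obtain ⟨v, hv⟩ : ∃ v, m - 1 - t = l + 1 + v := ⟨m - 1 - t - (l + 1), by omega⟩
      have hv' : ((m - 1 - t : ℕ) : ℂ) = l + 1 + v := by
        rw [hv]
        push_cast
        ring
      have h5 : ((mu ⟨l, hl'⟩ : ℂ) + s * 0 - ((mu ⟨m - 1 - t, hi⟩ : ℂ) + s * (1 + 0)) +
          (((m - 1 - t : ℕ) : ℂ) - l - 1)) = ((u + 1 + v : ℕ) : ℂ) := by
        rw [hu, hv']
        push_cast
        ring
      rw [h5]
      exact_mod_cast (by omega : u + 1 + v ≠ 0)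

/-- Old columns keep their degrees. -/
lemma Op_old (mu nu : Fin m → ℕ) {x : MvPolynomial (Fin m × Option σ) ℂ} {j : σ} {τ : ℂ}
    (hx : ce m (some j) x = τ • x) :
    ∀ t, t ≤ m → ce m (some j) (Op σ mu nu t x) = τ • Op σ mu nu t x := by
  classical
  intro t
  induction t with
  | zero => intro _; exact hx
  | succ t ih =>
    intro ht
    have h3 := op_TT (E := DN m (Option σ)) (θ := th mu nu t) (d := fun _ => 0)
      (i := m - 1 - t) (y := yv m σ) (ce m (some j)).toLinearMap
      (fun x y => by
        change ce m (some j) (x * y) = ce m (some j) x * y + x * ce m (some j) y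
        rw [Derivation.leibniz, smul_eq_mul, smul_eq_mul]
        ring)
      (fun a b x => ce_DN _ a b x) (δ := 0)
      (fun l hl => by
        change ce m (some j) (yv m σ l) = _
        rw [yv_of (by omega : l < m), ce_X, if_neg (by simp), zero_smul])
      (ih (by omega)) (kb mu nu (m - 1 - t))
    rw [Op_succ]
    rw [mul_zero, add_zero] at h3
    exact h3

/-- The degree of the new column. -/
lemma Op_new (mu nu : Fin m → ℕ) {x : MvPolynomial (Fin m × Option σ) ℂ}
    (hx : ce m none x = 0) :
    ∀ t, t ≤ m → ce m none (Op σ mu nu t x) =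
      ((∑ s ∈ Finset.range t, kb mu nu (m - 1 - s) : ℕ) : ℂ) • Op σ mu nu t x := by
  classical
  intro t
  induction t with
  | zero =>
    intro _
    rw [Finset.sum_range_zero, Nat.cast_zero, zero_smul]
    exact hx
  | succ t ih =>
    intro ht
    have h3 := op_TT (E := DN m (Option σ)) (θ := th mu nu t) (d := fun _ => 0)
      (i := m - 1 - t) (y := yv m σ) (ce m (none : Option σ)).toLinearMap
      (fun x y => by
        change ce m none (x * y) = ce m none x * y + x * ce m none y
        rw [Derivation.leibniz, smul_eq_mul, smul_eq_mul]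
        ring)
      (fun a b x => ce_DN _ a b x) (δ := 1)
      (fun l hl => by
        change ce m none (yv m σ l) = _
        rw [yv_of (by omega : l < m), ce_X, if_pos rfl, one_smul])
      (ih (by omega)) (kb mu nu (m - 1 - t))
    rw [Op_succ, Finset.sum_range_succ, Nat.cast_add]
    rw [mul_one] at h3
    exact h3

/-- Permutations of the old columns. -/
lemma Op_perm (mu nu : Fin m → ℕ) (e : Option σ → Option σ) (he : e none = none)
    (x : MvPolynomial (Fin m × Option σ) ℂ) :
    ∀ t, rename (rc m e) (Op σ mu nu t x) = Op σ mu nu t (rename (rc m e) x) := by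
  intro t
  induction t with
  | zero => rfl
  | succ t ih =>
    rw [Op_succ, Op_succ, ← ih]
    refine map_TT (E := DN m (Option σ)) (F := DN m (Option σ)) (rename (rc m e))
      (fun a b x => ?_) (fun l => ?_) _ _
    · by_cases h : a < m ∧ b < m
      · rw [DN_of h.1 h.2, DN_of h.1 h.2, dl_apply, dl_apply, rowOp_rename]
      · rw [DN_not h, DN_not h, map_zero]
    · rw [yv]
      split_ifs with h
      · rw [rename_X, rc, he]
      · rw [map_zero]

/-- Injectivity. -/
lemma Op_ne (mu nu : Fin m → ℕ) {f : MvPolynomial (Fin m × σ) ℂ} (hf : f ≠ 0) :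
    ∀ t, t ≤ m → ∃ g : Fin m × Option σ → ℂ, (∀ l : Fin m, (l : ℕ) + t < m → g (l, none) = 0) ∧
      eval g (Op σ mu nu t (rename (rc m some) f)) ≠ 0 := by
  classical
  intro t
  induction t with
  | zero =>
    intro _
    have h1 : ∃ g0 : Fin m × σ → ℂ, eval g0 f ≠ 0 := by
      by_contra h
      push Not at h
      exact hf (MvPolynomial.funext fun g => by rw [h g, map_zero])
    obtain ⟨g0, hg0⟩ := h1
    refine ⟨fun p => p.2.elim 0 (fun j => g0 (p.1, j)), fun l _ => rfl, ?_⟩
    change eval _ (rename (rc m some) f) ≠ 0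
    rw [eval_rename]
    exact hg0
  | succ t ih =>
    intro ht
    obtain ⟨g, hg1, hg2⟩ := ih (by omega)
    have hi : m - 1 - t < m := by omega
    -- one variable
    let q : Fin m × Option σ := (⟨m - 1 - t, hi⟩, none)
    set F := Op σ mu nu t (rename (rc m some) f) with hF
    let P : Polynomial ℂ := aeval (fun p => if p = q then (Polynomial.X : Polynomial ℂ)
      else Polynomial.C (g p)) F
    have hP : ∀ z : ℂ, P.eval z = eval (Function.update g q z) F := by
      intro z
      have h1 : (Polynomial.evalRingHom z).comp (aeval (R := ℂ) (fun p => if p = q then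
          (Polynomial.X : Polynomial ℂ) else Polynomial.C (g p))).toRingHom =
          eval (Function.update g q z) := by
        apply MvPolynomial.ringHom_ext
        · intro r
          simp
        · intro p
          by_cases hp : p = q
          · subst hp
            simp
          · simp [hp]
      exact congrArg (fun ψ : MvPolynomial (Fin m × Option σ) ℂ →+* ℂ => ψ F) h1
    have hgq : g q = 0 := hg1 ⟨m - 1 - t, hi⟩ (by simp only []; omega)
    have hP0 : P.eval 0 ≠ 0 := by
      rw [hP]
      have : Function.update g q 0 = g := by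
        rw [← hgq, Function.update_eq_self]
      rw [this]
      exact hg2
    have hPX : P * Polynomial.X ≠ 0 :=
      mul_ne_zero (fun h => hP0 (by rw [h, Polynomial.eval_zero])) Polynomial.X_ne_zero
    obtain ⟨z, hz⟩ : ∃ z : ℂ, (P * Polynomial.X).eval z ≠ 0 := by
      by_contra h
      push Not at h
      exact hPX (Polynomial.funext fun z => by rw [h z, Polynomial.eval_zero])
    rw [Polynomial.eval_mul, Polynomial.eval_X, hP] at hz
    have hz1 := left_ne_zero_of_mul hz
    have hz0 := right_ne_zero_of_mul hz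
    refine ⟨Function.update g q z, fun l hl => ?_, ?_⟩
    · have hlq : ((l, none) : Fin m × Option σ) ≠ q := by
        intro h
        have h1 := congrArg (fun p : Fin m × Option σ => (p.1 : ℕ)) h
        simp only [q] at h1
        omega
      rw [Function.update_of_ne hlq]
      exact hg1 l (by omega)
    · rw [Op_succ, ← hF]
      have h3 := phi_TT' (E := DN m (Option σ)) (θ := th mu nu t) (d := fun _ => 0)
        (i := m - 1 - t) (y := yv m σ) (aeval (R := ℂ) (Function.update g q z))
        (fun l hl => by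
          rw [yv_of (by omega : l < m), aeval_X]
          have hlq : (((⟨l, by omega⟩ : Fin m), none) : Fin m × Option σ) ≠ q := by
            intro h
            have h1 := congrArg (fun p : Fin m × Option σ => (p.1 : ℕ)) h
            simp only [q] at h1
            omega
          rw [Function.update_of_ne hlq]
          exact hg1 _ (by simp only []; omega)) F (kb mu nu (m - 1 - t))
      have h4 : ∀ G : MvPolynomial (Fin m × Option σ) ℂ,
          aeval (R := ℂ) (Function.update g q z) G = eval (Function.update g q z) G := fun G => rfl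
      rw [h4, h4, h4, yv_of hi, eval_X] at h3
      rw [h3]
      have h5 : Function.update g q z (⟨m - 1 - t, hi⟩, none) = z := Function.update_self _ _ _
      rw [h5]
      exact mul_ne_zero hz1 (pow_ne_zero _ hz0)

/-- The degrees with the new column. -/
def dx (d : σ → ℕ) (x : ℕ) : Option σ → ℕ := fun o => o.elim x d

/-- The number of boxes. -/
lemma sum_kb {mu nu : Fin m → ℕ} (h1 : ∀ i, mu i ≤ nu i) {x : ℕ}
    (hx : ∑ i, nu i = ∑ i, mu i + x) :
    ∑ s ∈ Finset.range m, kb mu nu (m - 1 - s) = x := by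
  rw [Finset.sum_range_reflect (fun l => kb mu nu l) m, Finset.sum_range]
  have h2 : ∑ i : Fin m, kb mu nu i + ∑ i, mu i = ∑ i, nu i := by
    rw [← Finset.sum_add_distrib]
    refine Finset.sum_congr rfl (fun i _ => ?_)
    rw [kb, dif_pos i.2]
    have := h1 i
    simp only [Fin.eta]
    omega
  omega

lemma Op_mem {mu nu : Fin m → ℕ} {d : σ → ℕ} {x : ℕ} (h1 : ∀ i, mu i ≤ nu i)
    (h2 : ∀ i j : Fin m, (i : ℕ) + 1 = j → nu j ≤ mu i) (hx : ∑ i, nu i = ∑ i, mu i + x)
    (hd : ∀ j, d j ≠ x) {f : MvPolynomial (Fin m × σ) ℂ} (hf : f ∈ PK m σ d mu) :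
    Op σ mu nu m (rename (rc m some) f) ∈ PK m (Option σ) (dx d x) nu := by
  classical
  have hmu : Antitone mu := by
    rcases Nat.eq_zero_or_pos m with h0 | h0
    · subst h0
      intro i
      exact i.elim0
    · obtain ⟨m', rfl⟩ : ∃ m', m = m' + 1 := ⟨m - 1, by omega⟩
      refine Fin.antitone_iff_succ_le.2 (fun i => ?_)
      exact (h1 _).trans (h2 i.castSucc i.succ (by simp))
  obtain ⟨hf1, hf2, hf3⟩ := hf
  have hg1 : rename (rc m (some : σ → Option σ)) f ∈ Vale.Agent.P181.T4.HW m (Option σ) mu :=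
    HW_rename _ hf1
  have hg2 : ∀ v, coeff v (rename (rc m (some : σ → Option σ)) f) ≠ 0 →
      ∀ j, ∑ i, v (i, j) = dx d 0 j :=
    col_rename (Option.some_injective σ) (d' := dx d 0) (fun j => rfl)
      (fun j hj => by
        rcases j with _ | j
        · rfl
        · exact absurd ⟨j, rfl⟩ hj) hf2
  set G := rename (rc m (some : σ → Option σ)) f with hG
  -- highest weight
  have hH0 : G ∈ HW m (DN m (Option σ)) (th mu nu 0) := by
    refine ⟨fun a b hab hb => ?_, fun a ha => ?_⟩
    · rw [DN_of (by omega) hb, dl_apply]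
      exact hg1.2 _ _ (by rw [Fin.lt_def]; exact hab)
    · rw [DN_of ha ha, th, dif_pos ha, if_pos (by omega), row_eigen]
      exact fun v hv => hg1.1 v hv ⟨a, ha⟩
  have hH := Op_HW h1 h2 hmu hH0 m le_rfl
  refine ⟨⟨?_, fun s i hsi => ?_⟩, ?_, ?_⟩
  · intro v hv i
    have h3 := hH.2 i i.2
    rw [DN_of i.2 i.2, th, dif_pos i.2, if_neg (by omega), row_eigen] at h3
    exact h3 v hv
  · have h3 := hH.1 s i (Fin.lt_def.1 hsi) i.2
    rw [DN_of s.2 i.2, dl_apply] at h3
    exact h3
  · intro v hv j
    rcases j with _ | j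
    · have h3 := Op_new mu nu (x := G) (by
        have := (col_eigen (none : Option σ) 0 G).2 (fun v hv => hg2 v hv none)
        rw [Nat.cast_zero, zero_smul] at this
        exact this) m le_rfl
      rw [sum_kb h1 hx, col_eigen] at h3
      exact h3 v hv
    · have h3 := Op_old mu nu (x := G) (j := j) (τ := (d j : ℂ))
        ((col_eigen (some j) (d j) G).2 (fun v hv => hg2 v hv (some j))) m le_rfl
      rw [col_eigen] at h3
      exact h3 v hv
  · intro e he
    change rename (rc m e) _ = _
    have he0 : e none = none := by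
      rcases h : e none with _ | j
      · rfl
      · have h3 := he none
        rw [h] at h3
        exact absurd h3 (hd j)
    have hes : ∀ j, ∃ j', e (some j) = some j' := by
      intro j
      rcases h : e (some j) with _ | j'
      · have h3 := he (some j)
        rw [h] at h3
        exact absurd h3.symm (hd j)
      · exact ⟨j', rfl⟩
    rw [Op_perm mu nu e he0]
    congr 1
    choose g hg using hes
    have hgi : Function.Injective g := fun i j hij =>
      Option.some_injective _ (e.injective (by rw [hg, hg, hij]))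
    let p : Equiv.Perm σ := Equiv.ofBijective g (Finite.injective_iff_bijective.1 hgi)
    have h3 : ∀ j, d (p j) = d j := by
      intro j
      have h4 := he (some j)
      rw [hg] at h4
      exact h4
    have h5 := hf3 p h3
    change rename (rc m p) f = f at h5
    rw [hG, rename_rename]
    have h6 : rc m (⇑e) ∘ rc m some = rc m (some : σ → Option σ) ∘ rc m (⇑p) := by
      funext v
      simp only [rc, Function.comp_apply, Prod.mk.injEq, true_and]
      exact hg v.2
    rw [h6, ← rename_rename, h5]

/-- The strip as a linear map. -/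
noncomputable def Ph (σ : Type) [Fintype σ] (mu nu : Fin m → ℕ) :
    MvPolynomial (Fin m × σ) ℂ →ₗ[ℂ] MvPolynomial (Fin m × Option σ) ℂ :=
  Op σ mu nu m ∘ₗ (rename (rc m some)).toLinearMap

lemma Ph_inj (mu nu : Fin m → ℕ) : Function.Injective (Ph σ mu nu) := by
  rw [← LinearMap.ker_eq_bot, LinearMap.ker_eq_bot']
  intro f hf
  by_contra h
  obtain ⟨g, _, hg⟩ := Op_ne mu nu h m le_rfl
  apply hg
  change eval g (Ph σ mu nu f) = 0
  rw [hf, map_zero]

lemma finrank_strip {mu nu : Fin m → ℕ} {d : σ → ℕ} {x : ℕ} (h1 : ∀ i, mu i ≤ nu i)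
    (h2 : ∀ i j : Fin m, (i : ℕ) + 1 = j → nu j ≤ mu i) (hx : ∑ i, nu i = ∑ i, mu i + x)
    (hd : ∀ j, d j ≠ x) :
    Module.finrank ℂ (PK m σ d mu) ≤ Module.finrank ℂ (PK m (Option σ) (dx d x) nu) := by
  have hle : PK m (Option σ) (dx d x) nu ≤ Vale.Agent.P181.T4.HW m (Option σ) nu :=
    fun f hf => hf.1
  have : FiniteDimensional ℂ (PK m (Option σ) (dx d x) nu) :=
    Submodule.finiteDimensional_of_le hle
  rw [← LinearMap.finrank_range_of_inj (f := (Ph σ mu nu).domRestrict (PK m σ d mu))
    (fun f g h => Subtype.ext (Ph_inj mu nu h))]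
  apply Submodule.finrank_mono
  rintro _ ⟨⟨f, hf⟩, rfl⟩
  exact Op_mem h1 h2 hx hd hf

end strip

/-- **(P1)** -/
theorem stripS : StripS := by
  intro m x mu nu k hk hx0 h1 h2 hx
  have hT : TransS := Vale.Agent.P181.SZT0.transS
  have h3 := finrank_strip (σ := Fin k.toList.length) (d := fun j => k.toList.get j) h1 h2 hx
    (fun j h => hk (h ▸ Multiset.mem_toList.1 (List.get_mem _ _)))
  have h4 : nn m mu k = Module.finrank ℂ
      (PK m (Fin k.toList.length) (fun j => k.toList.get j) mu) := rfl
  have h5 : nn m nu (x ::ₘ k) = nn m nu ((x ::ₘ k).filter (0 < ·)) := by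
    conv_lhs => rw [nn]
    rw [hT, map_get]
  have h6 : (Finset.univ.val.map (dx (fun j : Fin k.toList.length => k.toList.get j) x) :
      Multiset ℕ) = x ::ₘ k := by
    rw [map_univ_val, Fintype.sum_option]
    simp only [dx, Option.elim_none, Option.elim_some]
    rw [← map_univ_val (fun j : Fin k.toList.length => k.toList.get j), map_get,
      Multiset.singleton_add]
  rw [h4, h5]
  refine h3.trans (le_of_eq ?_)
  rw [hT, h6]

end Vale.Agent.P181.PL1
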